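import Mathlib

/-!
Gadgets for square-difference-free sets (proof machinery; no statement definitions here).

A gadget `(m, n, κ)` is a set `S ⊆ [0, m^2)` with `n` elements and a rank function `φ : S → [0, κ)`
such that for distinct `a, b ∈ S` with `φ a ≤ φ b`, the difference `a - b` is not a square modulo `m^2`.
-/

namespace Vale.Agent.P042

/-- `(m, n, κ)`-gadget. -/
def Gadget (m n κ : ℕ) : Prop :=
  ∃ (S : Finset ℕ) (φ : ℕ → ℕ), (∀ a ∈ S, a < m ^ 2) ∧ (∀ a ∈ S, φ a < κ) ∧ S.card = n ∧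
    ∀ a ∈ S, ∀ b ∈ S, a ≠ b → φ a ≤ φ b → ∀ t : ℤ, ¬ ((m : ℤ) ^ 2 ∣ (a : ℤ) - b - t ^ 2)

/-- Lexicographic product. -/
theorem Gadget.lex {m₁ n₁ κ₁ m₂ n₂ κ₂ : ℕ} (hm₁ : 0 < m₁) (h₁ : Gadget m₁ n₁ κ₁)
    (h₂ : Gadget m₂ n₂ κ₂) : Gadget (m₁ * m₂) (n₁ * n₂) (κ₁ * κ₂) := by
  obtain ⟨S₁, φ₁, hS₁, hφ₁, hc₁, hd₁⟩ := h₁
  obtain ⟨S₂, φ₂, hS₂, hφ₂, hc₂, hd₂⟩ := h₂
  have hm2 : 0 < m₁ ^ 2 := by positivity
  have key : ∀ x y : ℕ, x < m₁ ^ 2 → (x + m₁ ^ 2 * y) % m₁ ^ 2 = x ∧ (x + m₁ ^ 2 * y) / m₁ ^ 2 = y := by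
    intro x y hx
    refine ⟨?_, ?_⟩
    · rw [Nat.add_mul_mod_self_left, Nat.mod_eq_of_lt hx]
    · rw [Nat.add_mul_div_left _ _ hm2, Nat.div_eq_of_lt hx, zero_add]
  refine ⟨(S₁ ×ˢ S₂).image (fun x => x.1 + m₁ ^ 2 * x.2),
    fun a => φ₁ (a % m₁ ^ 2) * κ₂ + φ₂ (a / m₁ ^ 2), ?_, ?_, ?_, ?_⟩
  · intro a ha
    simp only [Finset.mem_image, Finset.mem_product, Prod.exists] at ha
    obtain ⟨x, y, ⟨hx, hy⟩, rfl⟩ := ha
    have h1 := hS₁ x hx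
    have h2 := hS₂ y hy
    calc x + m₁ ^ 2 * y < m₁ ^ 2 + m₁ ^ 2 * y := by omega
      _ = m₁ ^ 2 * (y + 1) := by ring
      _ ≤ m₁ ^ 2 * m₂ ^ 2 := Nat.mul_le_mul_left _ h2
      _ = (m₁ * m₂) ^ 2 := by ring
  · intro a ha
    simp only [Finset.mem_image, Finset.mem_product, Prod.exists] at ha
    obtain ⟨x, y, ⟨hx, hy⟩, rfl⟩ := ha
    obtain ⟨e1, e2⟩ := key x y (hS₁ x hx)
    simp only [e1, e2]
    have h1 := hφ₁ x hx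
    have h2 := hφ₂ y hy
    calc φ₁ x * κ₂ + φ₂ y < φ₁ x * κ₂ + κ₂ := by omega
      _ = (φ₁ x + 1) * κ₂ := by ring
      _ ≤ κ₁ * κ₂ := Nat.mul_le_mul_right _ h1
  · rw [Finset.card_image_of_injOn, Finset.card_product, hc₁, hc₂]
    intro x hx y hy hxy
    simp only [Finset.coe_product, Set.mem_prod, Finset.mem_coe] at hx hy
    simp only at hxy
    obtain ⟨e1, e2⟩ := key x.1 x.2 (hS₁ _ hx.1)
    obtain ⟨e3, e4⟩ := key y.1 y.2 (hS₁ _ hy.1)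
    rw [hxy] at e1 e2
    exact Prod.ext (e1.symm.trans e3) (e2.symm.trans e4)
  · intro a ha b hb hab hle t hdvd
    simp only [Finset.mem_image, Finset.mem_product, Prod.exists] at ha hb
    obtain ⟨x, y, ⟨hx, hy⟩, rfl⟩ := ha
    obtain ⟨x', y', ⟨hx', hy'⟩, rfl⟩ := hb
    obtain ⟨e1, e2⟩ := key x y (hS₁ x hx)
    obtain ⟨e3, e4⟩ := key x' y' (hS₁ x' hx')
    simp only [e1, e2, e3, e4] at hle
    have hy1 := hφ₂ y hy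
    have hy2 := hφ₂ y' hy'
    by_cases hxx : x = x'
    · subst hxx
      have hyy : y ≠ y' := by
        intro h; apply hab; rw [h]
      have hle2 : φ₂ y ≤ φ₂ y' := by omega
      push_cast at hdvd
      have h1 : (m₁ : ℤ) ^ 2 ∣ t ^ 2 := by
        have h2 : (m₁ : ℤ) ^ 2 ∣ (x : ℤ) + m₁ ^ 2 * y - (x + m₁ ^ 2 * y') - t ^ 2 :=
          Dvd.dvd.trans ⟨(m₂ : ℤ) ^ 2, by ring⟩ hdvd
        have h3 : (m₁ : ℤ) ^ 2 ∣ (m₁ : ℤ) ^ 2 * ((y : ℤ) - y') := Dvd.intro _ rfl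
        have h4 := dvd_sub h3 h2
        have h5 : (m₁ : ℤ) ^ 2 * ((y : ℤ) - y') - ((x : ℤ) + m₁ ^ 2 * y - (x + m₁ ^ 2 * y') - t ^ 2) = t ^ 2 := by
          ring
        rwa [h5] at h4
      have h6 : (m₁ : ℤ) ∣ t := (Int.pow_dvd_pow_iff two_ne_zero).1 h1
      obtain ⟨u, rfl⟩ := h6
      apply hd₂ y hy y' hy' hyy hle2 u
      have h7 : ((m₁ : ℤ) ^ 2) * (m₂ : ℤ) ^ 2 ∣ (m₁ : ℤ) ^ 2 * ((y : ℤ) - y' - u ^ 2) := by
        have h8 : (x : ℤ) + m₁ ^ 2 * y - (x + m₁ ^ 2 * y') - (m₁ * u) ^ 2 = (m₁ : ℤ) ^ 2 * ((y : ℤ) - y' - u ^ 2) := by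
          ring
        rw [h8] at hdvd
        have h9 : ((m₁ : ℤ) * m₂) ^ 2 = ((m₁ : ℤ) ^ 2) * (m₂ : ℤ) ^ 2 := by ring
        rwa [h9] at hdvd
      exact (mul_dvd_mul_iff_left (by positivity)).1 h7
    · have hle1 : φ₁ x ≤ φ₁ x' := by
        by_contra hcon
        push Not at hcon
        have h10 : (φ₁ x' + 1) * κ₂ ≤ φ₁ x * κ₂ := Nat.mul_le_mul_right _ hcon
        have h11 : (φ₁ x' + 1) * κ₂ = φ₁ x' * κ₂ + κ₂ := by ring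
        omega
      apply hd₁ x hx x' hx' hxx hle1 t
      push_cast at hdvd
      have h2 : (m₁ : ℤ) ^ 2 ∣ (x : ℤ) + m₁ ^ 2 * y - (x' + m₁ ^ 2 * y') - t ^ 2 :=
        Dvd.dvd.trans ⟨(m₂ : ℤ) ^ 2, by ring⟩ hdvd
      have h3 : (m₁ : ℤ) ^ 2 ∣ (m₁ : ℤ) ^ 2 * ((y : ℤ) - y') := Dvd.intro _ rfl
      have h4 := dvd_sub h2 h3
      have h5 : (x : ℤ) + m₁ ^ 2 * y - (x' + m₁ ^ 2 * y') - t ^ 2 - (m₁ : ℤ) ^ 2 * ((y : ℤ) - y') = x - x' - t ^ 2 := by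
        ring
      rwa [h5] at h4

/-- The trivial gadget. -/
theorem Gadget.one : Gadget 1 1 1 := by
  refine ⟨{0}, fun _ => 0, ?_, ?_, ?_, ?_⟩
  · intro a ha; simp at ha; simp [ha]
  · intro a ha; simp
  · simp
  · intro a ha b hb hab; simp at ha hb; exact absurd (ha.trans hb.symm) hab

/-- Powers of a gadget. -/
theorem Gadget.pow {m n κ : ℕ} (hm : 0 < m) (h : Gadget m n κ) (s : ℕ) :
    Gadget (m ^ s) (n ^ s) (κ ^ s) := by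
  induction s with
  | zero => simpa using Gadget.one
  | succ s ih =>
    rw [pow_succ, pow_succ, pow_succ]
    exact Gadget.lex (by positivity) ih h

/-- Product of gadgets with coprime moduli: ranks add up. -/
theorem Gadget.mul {m₁ n₁ κ₁ m₂ n₂ κ₂ : ℕ} (hco : Nat.Coprime m₁ m₂) (hm₁ : 0 < m₁) (hm₂ : 0 < m₂)
    (h₁ : Gadget m₁ n₁ κ₁) (h₂ : Gadget m₂ n₂ κ₂) : Gadget (m₁ * m₂) (n₁ * n₂) (κ₁ + κ₂) := by
  obtain ⟨S₁, φ₁, hS₁, hφ₁, hc₁, hd₁⟩ := h₁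
  obtain ⟨S₂, φ₂, hS₂, hφ₂, hc₂, hd₂⟩ := h₂
  have hco2 : Nat.Coprime (m₁ ^ 2) (m₂ ^ 2) := Nat.Coprime.pow 2 2 hco
  have hm1 : 0 < m₁ ^ 2 := by positivity
  have hm2 : 0 < m₂ ^ 2 := by positivity
  set f : ℕ × ℕ → ℕ := fun x => (Nat.chineseRemainder hco2 x.1 x.2 : ℕ) with hf
  have hf1 : ∀ x : ℕ × ℕ, x.1 ∈ S₁ → f x % m₁ ^ 2 = x.1 := by
    intro x hx
    have := (Nat.chineseRemainder hco2 x.1 x.2).2.1
    rw [Nat.ModEq, Nat.mod_eq_of_lt (hS₁ _ hx)] at this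
    exact this
  have hf2 : ∀ x : ℕ × ℕ, x.2 ∈ S₂ → f x % m₂ ^ 2 = x.2 := by
    intro x hx
    have := (Nat.chineseRemainder hco2 x.1 x.2).2.2
    rw [Nat.ModEq, Nat.mod_eq_of_lt (hS₂ _ hx)] at this
    exact this
  refine ⟨(S₁ ×ˢ S₂).image f, fun a => φ₁ (a % m₁ ^ 2) + φ₂ (a % m₂ ^ 2), ?_, ?_, ?_, ?_⟩
  · intro a ha
    simp only [Finset.mem_image, Finset.mem_product] at ha
    obtain ⟨x, ⟨hx, hy⟩, rfl⟩ := ha
    have := Nat.chineseRemainder_lt_mul hco2 x.1 x.2 hm1.ne' hm2.ne'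
    calc f x < m₁ ^ 2 * m₂ ^ 2 := this
      _ = (m₁ * m₂) ^ 2 := by ring
  · intro a ha
    simp only [Finset.mem_image, Finset.mem_product] at ha
    obtain ⟨x, ⟨hx, hy⟩, rfl⟩ := ha
    simp only [hf1 x hx, hf2 x hy]
    have h1 := hφ₁ _ hx
    have h2 := hφ₂ _ hy
    omega
  · rw [Finset.card_image_of_injOn, Finset.card_product, hc₁, hc₂]
    intro x hx y hy hxy
    simp only [Finset.coe_product, Set.mem_prod, Finset.mem_coe] at hx hy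
    refine Prod.ext ?_ ?_
    · rw [← hf1 x hx.1, ← hf1 y hy.1, hxy]
    · rw [← hf2 x hx.2, ← hf2 y hy.2, hxy]
  · intro a ha b hb hab hle t hdvd
    simp only [Finset.mem_image, Finset.mem_product] at ha hb
    obtain ⟨x, ⟨hx, hy⟩, rfl⟩ := ha
    obtain ⟨x', ⟨hx', hy'⟩, rfl⟩ := hb
    simp only [hf1 x hx, hf2 x hy, hf1 x' hx', hf2 x' hy'] at hle
    have modc : ∀ (M : ℕ) (u v : ℕ), (M : ℤ) ∣ (u : ℤ) - v - t ^ 2 →
        (M : ℤ) ∣ ((u % M : ℕ) : ℤ) - ((v % M : ℕ) : ℤ) - t ^ 2 := by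
      intro M u v h
      have h1 : (M : ℤ) ∣ (u : ℤ) - ((u % M : ℕ) : ℤ) := by
        refine ⟨((u / M : ℕ) : ℤ), ?_⟩
        have := Nat.mod_add_div u M
        have h' : ((u % M : ℕ) : ℤ) + (M : ℤ) * ((u / M : ℕ) : ℤ) = (u : ℤ) := by exact_mod_cast this
        linarith
      have h2 : (M : ℤ) ∣ (v : ℤ) - ((v % M : ℕ) : ℤ) := by
        refine ⟨((v / M : ℕ) : ℤ), ?_⟩
        have := Nat.mod_add_div v M
        have h' : ((v % M : ℕ) : ℤ) + (M : ℤ) * ((v / M : ℕ) : ℤ) = (v : ℤ) := by exact_mod_cast this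
        linarith
      have h3 := dvd_add (dvd_sub h h1) h2
      have h4 : (u : ℤ) - v - t ^ 2 - ((u : ℤ) - ((u % M : ℕ) : ℤ)) + ((v : ℤ) - ((v % M : ℕ) : ℤ))
          = ((u % M : ℕ) : ℤ) - ((v % M : ℕ) : ℤ) - t ^ 2 := by ring
      rwa [h4] at h3
    have hd1' : ((m₁ ^ 2 : ℕ) : ℤ) ∣ ((f x : ℕ) : ℤ) - ((f x' : ℕ) : ℤ) - t ^ 2 := by
      refine Dvd.dvd.trans ?_ hdvd
      push_cast
      exact ⟨(m₂ : ℤ) ^ 2, by ring⟩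
    have hd2' : ((m₂ ^ 2 : ℕ) : ℤ) ∣ ((f x : ℕ) : ℤ) - ((f x' : ℕ) : ℤ) - t ^ 2 := by
      refine Dvd.dvd.trans ?_ hdvd
      push_cast
      exact ⟨(m₁ : ℤ) ^ 2, by ring⟩
    have hd1 := modc _ _ _ hd1'
    have hd2 := modc _ _ _ hd2'
    rw [hf1 x hx, hf1 x' hx'] at hd1
    rw [hf2 x hy, hf2 x' hy'] at hd2
    push_cast at hd1 hd2
    by_cases e1 : x.1 = x'.1
    · have e2 : x.2 ≠ x'.2 := by
        intro e2; apply hab; rw [Prod.ext e1 e2]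
      rw [e1] at hle
      exact hd₂ _ hy _ hy' e2 (by omega) t hd2
    · by_cases hl : φ₁ x.1 ≤ φ₁ x'.1
      · exact hd₁ _ hx _ hx' e1 hl t hd1
      · have e2 : x.2 ≠ x'.2 := by
          intro e2; rw [e2] at hle; omega
        exact hd₂ _ hy _ hy' e2 (by omega) t hd2

end Vale.Agent.P042
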