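import Mathlib
import Vale.Agent.Lib.P042.Gadget

/-!
Base gadgets coming from a finite check modulo a squarefree number `m`, and direct gadgets modulo `m^2`.
-/

namespace Vale.Agent.P042

/-- Boolean check for a squarefree modulus `m`: the list `L` consists of pairs `(digit, rank)`. -/
def checkBase (m κ : ℕ) (L : List (ℕ × ℕ)) : Bool :=
  L.all (fun x => Nat.blt x.1 m && Nat.blt x.2 κ &&
    L.all (fun y => (Nat.beq x.1 y.1) || Nat.blt y.2 x.2 ||
      (List.range m).all (fun t => !(Nat.beq ((x.1 + (m - y.1)) % m) (t * t % m)))))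

/-- Boolean check for a direct gadget modulo `M = m^2`. -/
def checkDirect (M κ : ℕ) (L : List (ℕ × ℕ)) : Bool :=
  L.all (fun x => Nat.blt x.1 M && Nat.blt x.2 κ &&
    L.all (fun y => (Nat.beq x.1 y.1) || Nat.blt y.2 x.2 ||
      (List.range M).all (fun t => !(Nat.beq ((x.1 + (M - y.1)) % M) (t * t % M)))))

/-- rank lookup -/
def rankOf (L : List (ℕ × ℕ)) (a : ℕ) : ℕ :=
  match L.find? (fun x => Nat.beq x.1 a) with
  | some x => x.2
  | none => 0

theorem rankOf_mem {L : List (ℕ × ℕ)} {a : ℕ} (ha : a ∈ L.map Prod.fst) :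
    (a, rankOf L a) ∈ L := by
  unfold rankOf
  cases h : L.find? (fun x => Nat.beq x.1 a) with
  | none =>
    exfalso
    rw [List.find?_eq_none] at h
    simp only [List.mem_map, Prod.exists, exists_and_right, exists_eq_right] at ha
    obtain ⟨b, hb⟩ := ha
    have := h (a, b) hb
    simp at this
  | some x =>
    have h1 := List.mem_of_find?_eq_some h
    have h2 := List.find?_some h
    have h3 : x.1 = a := Nat.eq_of_beq_eq_true h2
    subst h3
    exact h1

theorem nonsq_of_check {m : ℕ} (hm : 0 < m) {a b : ℕ} (hb : b < m)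
    (h : (List.range m).all (fun t => !(Nat.beq ((a + (m - b)) % m) (t * t % m))) = true) (t : ℤ) :
    ¬ ((m : ℤ) ∣ (a : ℤ) - b - t ^ 2) := by
  intro hd
  rw [List.all_eq_true] at h
  obtain ⟨u, hu⟩ : ∃ u : ℕ, (u : ℤ) = t % m :=
    ⟨(t % m).toNat, Int.toNat_of_nonneg (Int.emod_nonneg _ (by exact_mod_cast hm.ne'))⟩
  have hum : u < m := by
    have : (t % m : ℤ) < m := Int.emod_lt_of_pos _ (by exact_mod_cast hm)
    omega
  have h1 := h u (List.mem_range.2 hum)
  simp only [Bool.not_eq_true'] at h1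
  have h2 : (a + (m - b)) % m = u * u % m := by
    have h3 : ((a + (m - b) : ℕ) : ℤ) = (a : ℤ) + (m - b) := by
      push_cast [Nat.cast_sub hb.le]; ring
    have h4 : (m : ℤ) ∣ ((a + (m - b) : ℕ) : ℤ) - ((u * u : ℕ) : ℤ) := by
      rw [h3]
      push_cast
      have h5 : (m : ℤ) ∣ t - u := by
        rw [hu]
        exact Int.dvd_self_sub_emod
      have h6 : (m : ℤ) ∣ (t - u) * (t + u) := Dvd.dvd.mul_right h5 _
      have h7 : (a : ℤ) + (m - b) - u * u = ((a : ℤ) - b - t ^ 2) + (t - u) * (t + u) + m := by ring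
      rw [h7]
      exact dvd_add (dvd_add hd h6) (dvd_refl _)
    have h8 : (((a + (m - b) : ℕ) : ℤ)) ≡ ((u * u : ℕ) : ℤ) [ZMOD m] := by
      exact (Int.modEq_iff_dvd.2 (by
        have := (dvd_neg.2 h4)
        rwa [neg_sub] at this))
    exact (Int.natCast_modEq_iff.1 h8)
  rw [h2] at h1
  simp at h1

theorem gadget_of_checkDirect {m κ : ℕ} (hm : 0 < m) {L : List (ℕ × ℕ)}
    (hL : (L.map Prod.fst).Nodup) (h : checkDirect (m ^ 2) κ L = true) : Gadget m L.length κ := by
  have hm2 : 0 < m ^ 2 := by positivity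
  rw [checkDirect, List.all_eq_true] at h
  refine ⟨(L.map Prod.fst).toFinset, rankOf L, ?_, ?_, ?_, ?_⟩
  · intro a ha
    have h1 := h _ (rankOf_mem (List.mem_toFinset.1 ha))
    simp only [Bool.and_eq_true] at h1
    have := h1.1.1
    simpa using this
  · intro a ha
    have h1 := h _ (rankOf_mem (List.mem_toFinset.1 ha))
    simp only [Bool.and_eq_true] at h1
    have := h1.1.2
    simpa using this
  · rw [List.toFinset_card_of_nodup hL, List.length_map]
  · intro a ha b hb hab hle t
    have ha' := rankOf_mem (List.mem_toFinset.1 ha)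
    have hb' := rankOf_mem (List.mem_toFinset.1 hb)
    have h1 := h _ ha'
    have h1b := h _ hb'
    simp only [Bool.and_eq_true] at h1 h1b
    have h2 := h1.2
    rw [List.all_eq_true] at h2
    have h3 := h2 _ hb'
    simp only [Bool.or_eq_true] at h3
    have hbm : b < m ^ 2 := by simpa using h1b.1.1
    rcases h3 with (h3 | h3) | h3
    · exact absurd (Nat.eq_of_beq_eq_true h3) hab
    · have : rankOf L b < rankOf L a := by simpa using h3
      omega
    · have := nonsq_of_check hm2 hbm h3 t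
      push_cast at this
      exact this

theorem gadget_of_checkBase {m κ : ℕ} (hm : 0 < m) (hsq : Squarefree m) {L : List (ℕ × ℕ)}
    (hL : (L.map Prod.fst).Nodup) (h : checkBase m κ L = true) : Gadget m (m * L.length) κ := by
  have hm2 : 0 < m ^ 2 := by positivity
  rw [checkBase, List.all_eq_true] at h
  have key : ∀ x y : ℕ, x < m → (x + m * y) % m = x ∧ (x + m * y) / m = y := by
    intro x y hx
    refine ⟨?_, ?_⟩
    · rw [Nat.add_mul_mod_self_left, Nat.mod_eq_of_lt hx]
    · rw [Nat.add_mul_div_left _ _ hm, Nat.div_eq_of_lt hx, zero_add]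
  have hlt : ∀ x ∈ (L.map Prod.fst).toFinset, x < m := by
    intro a ha
    have h1 := h _ (rankOf_mem (List.mem_toFinset.1 ha))
    simp only [Bool.and_eq_true] at h1
    have := h1.1.1
    simpa using this
  refine ⟨((L.map Prod.fst).toFinset ×ˢ Finset.range m).image (fun x => x.1 + m * x.2),
    fun a => rankOf L (a % m), ?_, ?_, ?_, ?_⟩
  · intro a ha
    simp only [Finset.mem_image, Finset.mem_product, Prod.exists, Finset.mem_range] at ha
    obtain ⟨x, y, ⟨hx, hy⟩, rfl⟩ := ha
    have := hlt x hx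
    calc x + m * y < m + m * y := by omega
      _ = m * (y + 1) := by ring
      _ ≤ m * m := Nat.mul_le_mul_left _ hy
      _ = m ^ 2 := by ring
  · intro a ha
    simp only [Finset.mem_image, Finset.mem_product, Prod.exists, Finset.mem_range] at ha
    obtain ⟨x, y, ⟨hx, hy⟩, rfl⟩ := ha
    simp only [(key x y (hlt x hx)).1]
    have h1 := h _ (rankOf_mem (List.mem_toFinset.1 hx))
    simp only [Bool.and_eq_true] at h1
    have := h1.1.2
    simpa using this
  · rw [Finset.card_image_of_injOn, Finset.card_product, List.toFinset_card_of_nodup hL,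
      List.length_map, Finset.card_range, mul_comm]
    intro x hx y hy hxy
    simp only [Finset.coe_product, Set.mem_prod, Finset.mem_coe] at hx hy
    simp only at hxy
    obtain ⟨e1, e2⟩ := key x.1 x.2 (hlt _ hx.1)
    obtain ⟨e3, e4⟩ := key y.1 y.2 (hlt _ hy.1)
    rw [hxy] at e1 e2
    exact Prod.ext (e1.symm.trans e3) (e2.symm.trans e4)
  · intro a ha b hb hab hle t hdvd
    simp only [Finset.mem_image, Finset.mem_product, Prod.exists, Finset.mem_range] at ha hb
    obtain ⟨x, y, ⟨hx, hy⟩, rfl⟩ := ha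
    obtain ⟨x', y', ⟨hx', hy'⟩, rfl⟩ := hb
    simp only [(key x y (hlt x hx)).1, (key x' y' (hlt x' hx')).1] at hle
    by_cases hxx : x = x'
    · subst hxx
      have hyy : y ≠ y' := by
        intro h; apply hab; rw [h]
      have e1 : (((x + m * y : ℕ) : ℤ) - ((x + m * y' : ℕ) : ℤ) - t ^ 2) = (m : ℤ) * ((y : ℤ) - y') - t ^ 2 := by
        push_cast; ring
      rw [e1] at hdvd
      have h1 : (m : ℤ) ∣ t ^ 2 := by
        have h2 : (m : ℤ) ∣ (m : ℤ) * ((y : ℤ) - y') - t ^ 2 :=
          Dvd.dvd.trans ⟨(m : ℤ), by ring⟩ hdvd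
        have h4 := dvd_sub (Dvd.intro ((y : ℤ) - y') rfl) h2
        rwa [sub_sub_cancel] at h4
      have h2 : (m : ℤ) ∣ t := by
        have hsqz : Squarefree (m : ℤ) := Int.squarefree_natCast.2 hsq
        exact (hsqz.dvd_pow_iff_dvd two_ne_zero).1 h1
      obtain ⟨u, rfl⟩ := h2
      have h3 : (m : ℤ) ^ 2 ∣ (m : ℤ) ^ 2 * u ^ 2 := Dvd.intro _ rfl
      have h4 := dvd_add hdvd h3
      have h5 : (m : ℤ) * ((y : ℤ) - y') - (m * u) ^ 2 + (m : ℤ) ^ 2 * u ^ 2 = (m : ℤ) * ((y : ℤ) - y') := by ring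
      rw [h5, pow_two] at h4
      have h6 : (m : ℤ) ∣ (y : ℤ) - y' := (mul_dvd_mul_iff_left (by exact_mod_cast hm.ne')).1 h4
      have h7 : (y : ℤ) - y' = 0 := by
        apply Int.eq_zero_of_abs_lt_dvd h6
        rw [abs_lt]
        constructor <;> omega
      apply hyy
      omega
    · have h1 := h _ (rankOf_mem (List.mem_toFinset.1 hx))
      simp only [Bool.and_eq_true] at h1
      have h2 := h1.2
      rw [List.all_eq_true] at h2
      have h3 := h2 _ (rankOf_mem (List.mem_toFinset.1 hx'))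
      simp only [Bool.or_eq_true] at h3
      rcases h3 with (h3 | h3) | h3
      · exact absurd (Nat.eq_of_beq_eq_true h3) hxx
      · have : rankOf L x' < rankOf L x := by simpa using h3
        omega
      · apply nonsq_of_check hm (hlt x' hx') h3 t
        have h2 : (m : ℤ) ∣ ((x + m * y : ℕ) : ℤ) - ((x' + m * y' : ℕ) : ℤ) - t ^ 2 :=
          Dvd.dvd.trans ⟨(m : ℤ), by ring⟩ hdvd
        have h4 := dvd_sub h2 (Dvd.intro ((y : ℤ) - y') rfl : (m : ℤ) ∣ (m : ℤ) * ((y : ℤ) - y'))
        have h5 : ((x + m * y : ℕ) : ℤ) - ((x' + m * y' : ℕ) : ℤ) - t ^ 2 - (m : ℤ) * ((y : ℤ) - y')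
            = x - x' - t ^ 2 := by push_cast; ring
        rwa [h5] at h4

end Vale.Agent.P042
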