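import Mathlib
import Vale.Agent.Lib.P042.Base

/-!
Explicit base gadgets (found by computer search), checked by kernel evaluation.
-/

namespace Vale.Agent.P042

def list2 : List (ℕ × ℕ) := [(1, 0), (28, 0), (36, 0), (33, 1), (44, 1), (52, 1), (4, 2), (60, 2), (5, 3), (21, 4), (37, 5), (57, 5), (9, 6), (13, 7), (25, 7), (45, 7), (22, 8), (42, 8), (54, 8), (58, 9), (10, 10), (62, 10), (14, 11), (30, 12), (39, 13), (63, 13), (15, 14), (34, 14), (55, 14), (2, 15), (7, 15), (31, 15)]

theorem gadget2 : Gadget 8 32 16 := by
  have h := gadget_of_checkDirect (m := 8) (κ := 16) (L := list2) (by norm_num) (by decide) (by decide +kernel)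
  exact h

def list3 : List (ℕ × ℕ) := [(0, 0), (1, 1)]

theorem gadget3 : Gadget 3 6 2 := by
  have h := gadget_of_checkBase (m := 3) (κ := 2) (L := list3) (by norm_num) (by decide +kernel) (by decide) (by decide +kernel)
  exact h

def list7 : List (ℕ × ℕ) := [(0, 0), (1, 1), (2, 2)]

theorem gadget7 : Gadget 7 21 3 := by
  have h := gadget_of_checkBase (m := 7) (κ := 3) (L := list7) (by norm_num) (by decide +kernel) (by decide) (by decide +kernel)
  exact h

def list11 : List (ℕ × ℕ) := [(0, 0), (1, 1), (4, 2), (5, 3)]

theorem gadget11 : Gadget 11 44 4 := by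
  have h := gadget_of_checkBase (m := 11) (κ := 4) (L := list11) (by norm_num) (by decide +kernel) (by decide) (by decide +kernel)
  exact h

def list19 : List (ℕ × ℕ) := [(0, 0), (1, 1), (6, 2), (17, 3), (7, 4)]

theorem gadget19 : Gadget 19 95 5 := by
  have h := gadget_of_checkBase (m := 19) (κ := 5) (L := list19) (by norm_num) (by decide +kernel) (by decide) (by decide +kernel)
  exact h

def list31 : List (ℕ × ℕ) := [(0, 0), (1, 1), (8, 2), (5, 3), (2, 4), (9, 5), (10, 6)]

theorem gadget31 : Gadget 31 217 7 := by
  have h := gadget_of_checkBase (m := 31) (κ := 7) (L := list31) (by norm_num) (by decide +kernel) (by decide) (by decide +kernel)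
  exact h

def list59 : List (ℕ × ℕ) := [(0, 0), (1, 1), (28, 2), (17, 3), (22, 4), (4, 5), (26, 6), (20, 7), (29, 8)]

theorem gadget59 : Gadget 59 531 9 := by
  have h := gadget_of_checkBase (m := 59) (κ := 9) (L := list59) (by norm_num) (by decide +kernel) (by decide) (by decide +kernel)
  exact h

def list43 : List (ℕ × ℕ) := [(0, 0), (1, 1), (10, 2), (16, 3), (14, 4), (11, 5), (25, 6)]

theorem gadget43 : Gadget 43 301 7 := by
  have h := gadget_of_checkBase (m := 43) (κ := 7) (L := list43) (by norm_num) (by decide +kernel) (by decide) (by decide +kernel)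
  exact h

def list71 : List (ℕ × ℕ) := [(0, 0), (1, 1), (37, 2), (20, 3), (6, 4), (30, 5), (9, 6), (49, 7), (38, 8)]

theorem gadget71 : Gadget 71 639 9 := by
  have h := gadget_of_checkBase (m := 71) (κ := 9) (L := list71) (by norm_num) (by decide +kernel) (by decide) (by decide +kernel)
  exact h

def list103 : List (ℕ × ℕ) := [(0, 0), (1, 1), (29, 2), (92, 3), (2, 4), (61, 5), (17, 6), (30, 7), (93, 8), (18, 9), (19, 10)]

theorem gadget103 : Gadget 103 1133 11 := by
  have h := gadget_of_checkBase (m := 103) (κ := 11) (L := list103) (by norm_num) (by decide +kernel) (by decide) (by decide +kernel)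
  exact h

def list115 : List (ℕ × ℕ) := [(6, 0), (19, 0), (48, 1), (100, 1), (35, 2), (107, 2), (1, 3), (73, 3), (8, 4), (60, 4), (102, 5), (89, 5)]

theorem gadget115 : Gadget 115 1380 6 := by
  have h := gadget_of_checkBase (m := 115) (κ := 6) (L := list115) (by norm_num) (by decide +kernel) (by decide) (by decide +kernel)
  exact h

end Vale.Agent.P042
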