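import Mathlib
import Vale.Agent.Lib.P042.Gadget

/-!
From a gadget to large square-difference-free sets.
-/

namespace Vale.Agent.P042

/-- `A` contains no two elements whose (integer) difference is the square of a positive integer. -/
def SqFree (A : Finset ℕ) : Prop :=
  ∀ a ∈ A, ∀ b ∈ A, ∀ n : ℤ, (a : ℤ) - b = n ^ 2 → a = b

theorem sqFree_step {m n κ : ℕ} (hm : 0 < m) (h : Gadget m n κ) {L : ℕ} {B : Finset ℕ}
    (hB : ∀ b ∈ B, b < L) (hBs : SqFree B) :
    ∃ A : Finset ℕ, (∀ a ∈ A, a < κ * m ^ 2 * L) ∧ SqFree A ∧ A.card = n * B.card := by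
  obtain ⟨S, φ, hS, hφ, hc, hd⟩ := h
  have hm2 : 0 < m ^ 2 := by positivity
  set g : ℕ × ℕ → ℕ := fun x => x.1 + m ^ 2 * (L * (κ - 1 - φ x.1) + x.2) with hg
  have key : ∀ x y : ℕ, x < m ^ 2 → (x + m ^ 2 * y) % m ^ 2 = x ∧ (x + m ^ 2 * y) / m ^ 2 = y := by
    intro x y hx
    refine ⟨?_, ?_⟩
    · rw [Nat.add_mul_mod_self_left, Nat.mod_eq_of_lt hx]
    · rw [Nat.add_mul_div_left _ _ hm2, Nat.div_eq_of_lt hx, zero_add]
  refine ⟨(S ×ˢ B).image g, ?_, ?_, ?_⟩
  · intro a ha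
    simp only [Finset.mem_image, Finset.mem_product, Prod.exists] at ha
    obtain ⟨x, y, ⟨hx, hy⟩, rfl⟩ := ha
    have h1 := hS x hx
    have h2 := hB y hy
    have h3 := hφ x hx
    have h4 : L * (κ - 1 - φ x) + y + 1 ≤ κ * L := by
      calc L * (κ - 1 - φ x) + y + 1 ≤ L * (κ - 1 - φ x) + L := by omega
        _ = L * (κ - 1 - φ x + 1) := by ring
        _ ≤ L * κ := Nat.mul_le_mul_left _ (by omega)
        _ = κ * L := by ring
    calc g (x, y) < m ^ 2 + m ^ 2 * (L * (κ - 1 - φ x) + y) := by simp only [hg]; omega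
      _ = m ^ 2 * (L * (κ - 1 - φ x) + y + 1) := by ring
      _ ≤ m ^ 2 * (κ * L) := Nat.mul_le_mul_left _ h4
      _ = κ * m ^ 2 * L := by ring
  · intro a ha b hb t hab
    simp only [Finset.mem_image, Finset.mem_product, Prod.exists] at ha hb
    obtain ⟨x, y, ⟨hx, hy⟩, rfl⟩ := ha
    obtain ⟨x', y', ⟨hx', hy'⟩, rfl⟩ := hb
    by_cases hxx : x = x'
    · subst hxx
      have e : (m : ℤ) ^ 2 * ((y : ℤ) - y') = t ^ 2 := by
        rw [← hab]; simp only [hg]; push_cast; ring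
      have h1 : (m : ℤ) ∣ t := (Int.pow_dvd_pow_iff two_ne_zero).1 (Dvd.intro _ e)
      obtain ⟨u, rfl⟩ := h1
      have h2 : (y : ℤ) - y' = u ^ 2 := by
        have h3 : (m : ℤ) ^ 2 * ((y : ℤ) - y') = (m : ℤ) ^ 2 * u ^ 2 := by rw [e]; ring
        exact mul_left_cancel₀ (by positivity) h3
      have h4 := hBs y hy y' hy' u h2
      rw [h4]
    · exfalso
      have hnn : ((g (x', y') : ℕ) : ℤ) ≤ ((g (x, y) : ℕ) : ℤ) := by
        have := sq_nonneg t; linarith
      have hnn' : g (x', y') ≤ g (x, y) := by exact_mod_cast hnn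
      have hle : φ x ≤ φ x' := by
        by_contra hcon
        push Not at hcon
        have h3 := hφ x hx
        have h5 : L * (κ - 1 - φ x) + y + 1 ≤ L * (κ - 1 - φ x') := by
          calc L * (κ - 1 - φ x) + y + 1 ≤ L * (κ - 1 - φ x) + L := by
                have := hB y hy; omega
            _ = L * (κ - 1 - φ x + 1) := by ring
            _ ≤ L * (κ - 1 - φ x') := Nat.mul_le_mul_left _ (by omega)
        have h6 : g (x, y) < g (x', y') := by
          calc g (x, y) < m ^ 2 + m ^ 2 * (L * (κ - 1 - φ x) + y) := by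
                have := hS x hx; simp only [hg]; omega
            _ = m ^ 2 * (L * (κ - 1 - φ x) + y + 1) := by ring
            _ ≤ m ^ 2 * (L * (κ - 1 - φ x')) := Nat.mul_le_mul_left _ h5
            _ ≤ x' + m ^ 2 * (L * (κ - 1 - φ x') + y') := by
                have : m ^ 2 * (L * (κ - 1 - φ x')) ≤ m ^ 2 * (L * (κ - 1 - φ x') + y') :=
                  Nat.mul_le_mul_left _ (by omega)
                omega
        omega
      apply hd x hx x' hx' hxx hle t
      refine ⟨((L * (κ - 1 - φ x') + y' : ℕ) : ℤ) - ((L * (κ - 1 - φ x) + y : ℕ) : ℤ), ?_⟩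
      have h7 : t ^ 2 = ((g (x, y) : ℕ) : ℤ) - ((g (x', y') : ℕ) : ℤ) := hab.symm
      rw [h7]
      simp only [hg]
      push_cast
      ring
  · rw [Finset.card_image_of_injOn, Finset.card_product, hc]
    intro x hx y hy hxy
    simp only [Finset.coe_product, Set.mem_prod, Finset.mem_coe] at hx hy
    simp only [hg] at hxy
    obtain ⟨e1, e2⟩ := key x.1 (L * (κ - 1 - φ x.1) + x.2) (hS _ hx.1)
    obtain ⟨e3, e4⟩ := key y.1 (L * (κ - 1 - φ y.1) + y.2) (hS _ hy.1)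
    rw [hxy] at e1 e2
    have h1 : x.1 = y.1 := e1.symm.trans e3
    have h2 := e2.symm.trans e4
    rw [h1] at h2
    exact Prod.ext h1 (by omega)

theorem sqFree_pow {m n κ : ℕ} (hm : 0 < m) (h : Gadget m n κ) (j : ℕ) :
    ∃ A : Finset ℕ, (∀ a ∈ A, a < (κ * m ^ 2) ^ j) ∧ SqFree A ∧ A.card = n ^ j := by
  induction j with
  | zero =>
    refine ⟨{0}, ?_, ?_, ?_⟩
    · intro a ha; simp at ha; simp [ha]
    · intro a ha b hb n _; simp at ha hb; rw [ha, hb]
    · simp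
  | succ j ih =>
    obtain ⟨B, hB, hBs, hBc⟩ := ih
    obtain ⟨A, hA, hAs, hAc⟩ := sqFree_step hm h hB hBs
    refine ⟨A, ?_, hAs, ?_⟩
    · intro a ha
      have := hA a ha
      rw [pow_succ, mul_comm]
      exact this
    · rw [hAc, hBc, pow_succ, mul_comm]

/-- Main consequence: a gadget with `D = κ m^2` and `D^p ≤ n^q` gives square-difference-free subsets
of `[1, N]` with at least `n⁻¹ N^(p/q)` elements. -/
theorem exists_large {m n κ p q : ℕ} (hm : 0 < m) (hκ : 0 < κ) (hn : 0 < n) (hq : 0 < q)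
    (hD : 1 < κ * m ^ 2) (h : Gadget m n κ) (hpq : (κ * m ^ 2) ^ p ≤ n ^ q) (N : ℕ) (hN : 1 ≤ N) :
    ∃ A : Finset ℕ, A ⊆ Finset.Icc 1 N ∧ SqFree A ∧
      ((n : ℝ)⁻¹) * (N : ℝ) ^ ((p : ℝ) / q) ≤ A.card := by
  set D := κ * m ^ 2 with hDdef
  obtain ⟨j, hj1, hj2⟩ : ∃ j : ℕ, D ^ j ≤ N ∧ N < D ^ (j + 1) :=
    ⟨Nat.log D N, Nat.pow_log_le_self D (by omega), Nat.lt_pow_succ_log_self hD N⟩
  obtain ⟨A, hA, hAs, hAc⟩ := sqFree_pow hm h j
  refine ⟨A.image (fun a => a + 1), ?_, ?_, ?_⟩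
  · intro x hx
    simp only [Finset.mem_image] at hx
    obtain ⟨a, ha, rfl⟩ := hx
    have := hA a ha
    rw [← hDdef] at this
    rw [Finset.mem_Icc]
    omega
  · intro a ha b hb t hab
    simp only [Finset.mem_image] at ha hb
    obtain ⟨a', ha', rfl⟩ := ha
    obtain ⟨b', hb', rfl⟩ := hb
    have := hAs a' ha' b' hb' t (by push_cast at hab; linarith)
    rw [this]
  · rw [Finset.card_image_of_injective _ (fun x y h => by simpa using h), hAc]
    have hn' : (0 : ℝ) < n := by exact_mod_cast hn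
    have hq' : (0 : ℝ) < q := by exact_mod_cast hq
    have hDpos : (0 : ℝ) < (D : ℝ) := by
      have : 0 < D := by omega
      exact_mod_cast this
    have h1 : (D : ℝ) ^ ((p : ℝ) / q) ≤ n := by
      have h2 : (D : ℝ) ^ (p : ℝ) ≤ (n : ℝ) ^ (q : ℝ) := by
        rw [Real.rpow_natCast, Real.rpow_natCast]
        exact_mod_cast hpq
      calc (D : ℝ) ^ ((p : ℝ) / q) = ((D : ℝ) ^ (p : ℝ)) ^ ((q : ℝ)⁻¹) := by
            rw [← Real.rpow_mul hDpos.le]; rfl
        _ ≤ ((n : ℝ) ^ (q : ℝ)) ^ ((q : ℝ)⁻¹) :=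
            Real.rpow_le_rpow (by positivity) h2 (by positivity)
        _ = n := by
            rw [← Real.rpow_mul hn'.le, mul_inv_cancel₀ hq'.ne', Real.rpow_one]
    have h3 : (N : ℝ) ^ ((p : ℝ) / q) ≤ (n : ℝ) ^ (j + 1) := by
      calc (N : ℝ) ^ ((p : ℝ) / q) ≤ ((D : ℝ) ^ (j + 1)) ^ ((p : ℝ) / q) := by
            apply Real.rpow_le_rpow (by positivity) _ (by positivity)
            exact_mod_cast hj2.le
        _ = ((D : ℝ) ^ ((p : ℝ) / q)) ^ (j + 1) := by
            rw [← Real.rpow_natCast, ← Real.rpow_mul hDpos.le, mul_comm, Real.rpow_mul hDpos.le,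
              Real.rpow_natCast]
        _ ≤ (n : ℝ) ^ (j + 1) := pow_le_pow_left₀ (by positivity) h1 _
    calc ((n : ℝ)⁻¹) * (N : ℝ) ^ ((p : ℝ) / q) ≤ ((n : ℝ)⁻¹) * (n : ℝ) ^ (j + 1) := by gcongr
      _ = ((n ^ j : ℕ) : ℝ) := by
          push_cast
          rw [pow_succ]
          field_simp

end Vale.Agent.P042
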