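import Mathlib
import Vale.Agent.Lib.P042.Data
import Vale.Agent.Lib.P042.Final

/-!
Assembly of the big gadget.
-/

namespace Vale.Agent.P042

theorem big1 : Gadget (8 ^ 36) (32 ^ 36) (16 ^ 36) :=
  gadget2.pow (by norm_num) 36

theorem big2 : Gadget (8 ^ 36 * 3 ^ 144)
    (32 ^ 36 * 6 ^ 144)
    (16 ^ 36 + 2 ^ 144) := by
  refine Gadget.mul ?_ (by positivity) (by positivity) big1 (gadget3.pow (by norm_num) 144)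
  refine Nat.Coprime.pow_right _ ?_
  repeat'
    first
      | apply Nat.Coprime.mul_left
      | apply Nat.Coprime.pow_left
  all_goals norm_num

theorem big3 : Gadget (8 ^ 36 * 3 ^ 144 * 7 ^ 91)
    (32 ^ 36 * 6 ^ 144 * 21 ^ 91)
    (16 ^ 36 + 2 ^ 144 + 3 ^ 91) := by
  refine Gadget.mul ?_ (by positivity) (by positivity) big2 (gadget7.pow (by norm_num) 91)
  refine Nat.Coprime.pow_right _ ?_
  repeat'
    first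
      | apply Nat.Coprime.mul_left
      | apply Nat.Coprime.pow_left
  all_goals norm_num

theorem big4 : Gadget (8 ^ 36 * 3 ^ 144 * 7 ^ 91 * 11 ^ 72)
    (32 ^ 36 * 6 ^ 144 * 21 ^ 91 * 44 ^ 72)
    (16 ^ 36 + 2 ^ 144 + 3 ^ 91 + 4 ^ 72) := by
  refine Gadget.mul ?_ (by positivity) (by positivity) big3 (gadget11.pow (by norm_num) 72)
  refine Nat.Coprime.pow_right _ ?_
  repeat'
    first
      | apply Nat.Coprime.mul_left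
      | apply Nat.Coprime.pow_left
  all_goals norm_num

theorem big5 : Gadget (8 ^ 36 * 3 ^ 144 * 7 ^ 91 * 11 ^ 72 * 19 ^ 62)
    (32 ^ 36 * 6 ^ 144 * 21 ^ 91 * 44 ^ 72 * 95 ^ 62)
    (16 ^ 36 + 2 ^ 144 + 3 ^ 91 + 4 ^ 72 + 5 ^ 62) := by
  refine Gadget.mul ?_ (by positivity) (by positivity) big4 (gadget19.pow (by norm_num) 62)
  refine Nat.Coprime.pow_right _ ?_
  repeat'
    first
      | apply Nat.Coprime.mul_left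
      | apply Nat.Coprime.pow_left
  all_goals norm_num

theorem big6 : Gadget (8 ^ 36 * 3 ^ 144 * 7 ^ 91 * 11 ^ 72 * 19 ^ 62 * 31 ^ 51)
    (32 ^ 36 * 6 ^ 144 * 21 ^ 91 * 44 ^ 72 * 95 ^ 62 * 217 ^ 51)
    (16 ^ 36 + 2 ^ 144 + 3 ^ 91 + 4 ^ 72 + 5 ^ 62 + 7 ^ 51) := by
  refine Gadget.mul ?_ (by positivity) (by positivity) big5 (gadget31.pow (by norm_num) 51)
  refine Nat.Coprime.pow_right _ ?_
  repeat'
    first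
      | apply Nat.Coprime.mul_left
      | apply Nat.Coprime.pow_left
  all_goals norm_num

theorem big7 : Gadget (8 ^ 36 * 3 ^ 144 * 7 ^ 91 * 11 ^ 72 * 19 ^ 62 * 31 ^ 51 * 59 ^ 46)
    (32 ^ 36 * 6 ^ 144 * 21 ^ 91 * 44 ^ 72 * 95 ^ 62 * 217 ^ 51 * 531 ^ 46)
    (16 ^ 36 + 2 ^ 144 + 3 ^ 91 + 4 ^ 72 + 5 ^ 62 + 7 ^ 51 + 9 ^ 46) := by
  refine Gadget.mul ?_ (by positivity) (by positivity) big6 (gadget59.pow (by norm_num) 46)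
  refine Nat.Coprime.pow_right _ ?_
  repeat'
    first
      | apply Nat.Coprime.mul_left
      | apply Nat.Coprime.pow_left
  all_goals norm_num

theorem big8 : Gadget (8 ^ 36 * 3 ^ 144 * 7 ^ 91 * 11 ^ 72 * 19 ^ 62 * 31 ^ 51 * 59 ^ 46 * 43 ^ 51)
    (32 ^ 36 * 6 ^ 144 * 21 ^ 91 * 44 ^ 72 * 95 ^ 62 * 217 ^ 51 * 531 ^ 46 * 301 ^ 51)
    (16 ^ 36 + 2 ^ 144 + 3 ^ 91 + 4 ^ 72 + 5 ^ 62 + 7 ^ 51 + 9 ^ 46 + 7 ^ 51) := by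
  refine Gadget.mul ?_ (by positivity) (by positivity) big7 (gadget43.pow (by norm_num) 51)
  refine Nat.Coprime.pow_right _ ?_
  repeat'
    first
      | apply Nat.Coprime.mul_left
      | apply Nat.Coprime.pow_left
  all_goals norm_num

theorem big9 : Gadget (8 ^ 36 * 3 ^ 144 * 7 ^ 91 * 11 ^ 72 * 19 ^ 62 * 31 ^ 51 * 59 ^ 46 * 43 ^ 51 * 71 ^ 46)
    (32 ^ 36 * 6 ^ 144 * 21 ^ 91 * 44 ^ 72 * 95 ^ 62 * 217 ^ 51 * 531 ^ 46 * 301 ^ 51 * 639 ^ 46)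
    (16 ^ 36 + 2 ^ 144 + 3 ^ 91 + 4 ^ 72 + 5 ^ 62 + 7 ^ 51 + 9 ^ 46 + 7 ^ 51 + 9 ^ 46) := by
  refine Gadget.mul ?_ (by positivity) (by positivity) big8 (gadget71.pow (by norm_num) 46)
  refine Nat.Coprime.pow_right _ ?_
  repeat'
    first
      | apply Nat.Coprime.mul_left
      | apply Nat.Coprime.pow_left
  all_goals norm_num

theorem big10 : Gadget (8 ^ 36 * 3 ^ 144 * 7 ^ 91 * 11 ^ 72 * 19 ^ 62 * 31 ^ 51 * 59 ^ 46 * 43 ^ 51 * 71 ^ 46 * 103 ^ 42)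
    (32 ^ 36 * 6 ^ 144 * 21 ^ 91 * 44 ^ 72 * 95 ^ 62 * 217 ^ 51 * 531 ^ 46 * 301 ^ 51 * 639 ^ 46 * 1133 ^ 42)
    (16 ^ 36 + 2 ^ 144 + 3 ^ 91 + 4 ^ 72 + 5 ^ 62 + 7 ^ 51 + 9 ^ 46 + 7 ^ 51 + 9 ^ 46 + 11 ^ 42) := by
  refine Gadget.mul ?_ (by positivity) (by positivity) big9 (gadget103.pow (by norm_num) 42)
  refine Nat.Coprime.pow_right _ ?_
  repeat'
    first
      | apply Nat.Coprime.mul_left
      | apply Nat.Coprime.pow_left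
  all_goals norm_num

theorem big11 : Gadget (8 ^ 36 * 3 ^ 144 * 7 ^ 91 * 11 ^ 72 * 19 ^ 62 * 31 ^ 51 * 59 ^ 46 * 43 ^ 51 * 71 ^ 46 * 103 ^ 42 * 115 ^ 56)
    (32 ^ 36 * 6 ^ 144 * 21 ^ 91 * 44 ^ 72 * 95 ^ 62 * 217 ^ 51 * 531 ^ 46 * 301 ^ 51 * 639 ^ 46 * 1133 ^ 42 * 1380 ^ 56)
    (16 ^ 36 + 2 ^ 144 + 3 ^ 91 + 4 ^ 72 + 5 ^ 62 + 7 ^ 51 + 9 ^ 46 + 7 ^ 51 + 9 ^ 46 + 11 ^ 42 + 6 ^ 56) := by
  refine Gadget.mul ?_ (by positivity) (by positivity) big10 (gadget115.pow (by norm_num) 56)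
  refine Nat.Coprime.pow_right _ ?_
  repeat'
    first
      | apply Nat.Coprime.mul_left
      | apply Nat.Coprime.pow_left
  all_goals norm_num

theorem bigNumeric : ((16 ^ 36 + 2 ^ 144 + 3 ^ 91 + 4 ^ 72 + 5 ^ 62 + 7 ^ 51 + 9 ^ 46 + 7 ^ 51 + 9 ^ 46 + 11 ^ 42 + 6 ^ 56) * (8 ^ 36 * 3 ^ 144 * 7 ^ 91 * 11 ^ 72 * 19 ^ 62 * 31 ^ 51 * 59 ^ 46 * 43 ^ 51 * 71 ^ 46 * 103 ^ 42 * 115 ^ 56) ^ 2) ^ 189 ≤
    (32 ^ 36 * 6 ^ 144 * 21 ^ 91 * 44 ^ 72 * 95 ^ 62 * 217 ^ 51 * 531 ^ 46 * 301 ^ 51 * 639 ^ 46 * 1133 ^ 42 * 1380 ^ 56) ^ 250 := by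
  decide +kernel

end Vale.Agent.P042
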